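import Mathlib

/-!
# P324: unit jobs with precedence constraints whose width is at most the number of machines

An instance is a finite set `V` of unit jobs with an acyclic arc relation `E` (a directed acyclic
graph). A schedule of length `T` on `m` machines is a map `τ` from `V` to the slots `1, ..., T`
which takes each value at most `m` times and satisfies `τ u < τ v` for every arc `(u, v)`.

If every set of jobs that are pairwise unrelated by directed paths has at most `m` elements (the
precedence order has width at most `m`), then a schedule of length `T` on `m` machines exists if
and only if every directed path has at most `T` vertices. So on this class of instances the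
optimal makespan is the number of vertices of a longest directed path. The case `m = 3` is the
three-machine problem.
-/

namespace Vale.Agent.Results.P324.A_BoundedWidth

open Finset

section

variable {V : Type*} [Fintype V]

/-- The number of vertices of a longest directed path starting at a vertex, defined by recursion
along the arcs: one more than the largest value at an out-neighbour. -/
noncomputable def colev (E : V → V → Prop) (hwf : WellFounded (fun a b => E b a)) : V → ℕ :=
  hwf.fix (fun v ih => by
    classical
    exact (univ.sup (fun w => if h : E v w then ih w h else 0)) + 1)

theorem colev_eq (E : V → V → Prop) (hwf : WellFounded (fun a b => E b a)) (v : V) :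
    colev E hwf v = (univ.sup (fun w => open Classical in if E v w then colev E hwf w else 0)) + 1 := by
  classical
  unfold colev
  rw [WellFounded.fix_eq]
  congr 1

theorem one_le_colev (E : V → V → Prop) (hwf : WellFounded (fun a b => E b a)) (v : V) :
    1 ≤ colev E hwf v := by
  rw [colev_eq]
  exact Nat.le_add_left 1 _

theorem colev_lt (E : V → V → Prop) (hwf : WellFounded (fun a b => E b a)) {v w : V}
    (h : E v w) : colev E hwf w < colev E hwf v := by
  classical
  rw [colev_eq E hwf v]
  have h1 : (fun w => if E v w then colev E hwf w else 0) w
      ≤ univ.sup (fun w => if E v w then colev E hwf w else 0) :=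
    Finset.le_sup (f := fun w => if E v w then colev E hwf w else 0) (mem_univ w)
  simp only [h, if_true] at h1
  exact Nat.lt_succ_of_le h1

theorem colev_lt_of_transGen (E : V → V → Prop) (hwf : WellFounded (fun a b => E b a)) {v w : V}
    (h : Relation.TransGen E v w) : colev E hwf w < colev E hwf v := by
  induction h with
  | single h => exact colev_lt E hwf h
  | tail _ h ih => exact lt_trans (colev_lt E hwf h) ih

theorem exists_chain (E : V → V → Prop) (hwf : WellFounded (fun a b => E b a)) (v : V) :
    ∃ l : List V, l.IsChain E ∧ l.head? = some v ∧ l.length = colev E hwf v := by
  classical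
  induction v using hwf.induction with
  | _ v ih =>
    obtain ⟨w, -, hw⟩ := Finset.exists_mem_eq_sup (univ : Finset V) ⟨v, mem_univ v⟩
      (fun w => if E v w then colev E hwf w else 0)
    by_cases hE : E v w
    · obtain ⟨l, hl, hhead, hlen⟩ := ih w hE
      refine ⟨v :: l, ?_, rfl, ?_⟩
      · apply List.IsChain.cons hl
        intro y hy
        rw [hhead] at hy
        have : w = y := by simpa using hy
        rw [← this]
        exact hE
      · rw [colev_eq E hwf v, hw]
        simp [hE, hlen]
    · refine ⟨[v], List.isChain_singleton v, rfl, ?_⟩
      rw [colev_eq E hwf v, hw]
      simp [hE]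

end

/-- Along a directed path the slots of a schedule increase, so the slot of the first vertex plus
the number of vertices is at most `T + 1`. -/
theorem chain_bound {V : Type*} (E : V → V → Prop) (τ : V → ℕ) (T : ℕ) (hT : ∀ v, τ v ≤ T)
    (harc : ∀ u v, E u v → τ u < τ v) :
    ∀ l : List V, l.IsChain E → ∀ a, l.head? = some a → τ a + l.length ≤ T + 1 := by
  intro l
  induction l with
  | nil => intro _ a ha; simp at ha
  | cons b l ih =>
    intro hl a ha
    have hab : b = a := by simpa using ha
    subst hab
    cases l with
    | nil =>
      have := hT b
      simp
      omega
    | cons c l' =>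
      rw [List.isChain_cons_cons] at hl
      have h1 := ih hl.2 c rfl
      have h2 := harc b c hl.1
      simp only [List.length_cons] at h1 ⊢
      omega

/-- **Unit jobs on `m` machines with a precedence order of width at most `m`.**

`V` is a finite set of unit jobs, `E` the arc relation of a directed acyclic graph on `V`
(no vertex is joined to itself by a directed path with at least one arc). Assume that every set
`S` of jobs no two of which are joined by a directed path has at most `m` elements. Then for every
`T` the following are equivalent: there is a schedule of length `T` on `m` machines (a map `τ`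
into the slots `1, ..., T`, each slot used at most `m` times, with `τ u < τ v` for every arc
`(u, v)`); every directed path (a list of vertices whose consecutive entries are arcs) has at
most `T` vertices. -/
theorem result {V : Type*} [Fintype V] (E : V → V → Prop)
    (hacyc : ∀ v, ¬ Relation.TransGen E v v) (m : ℕ)
    (hwidth : ∀ S : Finset V, (∀ u ∈ S, ∀ v ∈ S, ¬ Relation.TransGen E u v) → S.card ≤ m)
    (T : ℕ) :
    (∃ τ : V → ℕ, (∀ v, 1 ≤ τ v ∧ τ v ≤ T) ∧
        (∀ t, (Finset.univ.filter (fun v => τ v = t)).card ≤ m) ∧
        (∀ u v, E u v → τ u < τ v)) ↔
      ∀ l : List V, l.IsChain E → l.length ≤ T := by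
  constructor
  · rintro ⟨τ, hτ, -, harc⟩ l hl
    cases l with
    | nil => simp
    | cons a l' =>
      have h1 := chain_bound E τ T (fun v => (hτ v).2) harc (a :: l') hl a rfl
      have h2 := (hτ a).1
      omega
  · intro hpath
    have hwf' : WellFounded (fun a b => Relation.TransGen E b a) := by
      have : IsTrans V (fun a b => Relation.TransGen E b a) :=
        ⟨fun a b c hab hbc => Relation.TransGen.trans hbc hab⟩
      have : Std.Irrefl (fun a b : V => Relation.TransGen E b a) := ⟨fun a => hacyc a⟩
      exact Finite.wellFounded_of_trans_of_irrefl _
    have hwf : WellFounded (fun a b => E b a) :=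
      Subrelation.wf (fun {a b} (h : E b a) => Relation.TransGen.single h) hwf'
    have hle : ∀ v, colev E hwf v ≤ T := by
      intro v
      obtain ⟨l, hl, -, hlen⟩ := exists_chain E hwf v
      rw [← hlen]
      exact hpath l hl
    have hge : ∀ v, 1 ≤ colev E hwf v := one_le_colev E hwf
    refine ⟨fun v => T + 1 - colev E hwf v, ?_, ?_, ?_⟩
    · intro v
      have h1 := hle v
      have h2 := hge v
      constructor <;> (dsimp only; omega)
    · intro t
      apply hwidth
      intro u hu v hv huv
      have h1 := colev_lt_of_transGen E hwf huv
      have hu' : T + 1 - colev E hwf u = t := (mem_filter.1 hu).2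
      have hv' : T + 1 - colev E hwf v = t := (mem_filter.1 hv).2
      have h2 := hle u
      have h3 := hle v
      omega
    · intro u v huv
      have h1 := colev_lt E hwf huv
      have h2 := hle u
      have h3 := hle v
      show T + 1 - colev E hwf u < T + 1 - colev E hwf v
      omega

end Vale.Agent.Results.P324.A_BoundedWidth
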